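import Vale.Agent.P165.Hyp.Main

open Vale.Agent.P165

namespace Vale.Agent.Results.P165.HyperbolicActions

universe u v w

/-- A connected locally finite graph with a cofinite action of a group that also acts by isometries
on a hyperbolic space, compatibly with a map of the vertices into it and with two independent
loxodromic elements, has a nonuniqueness phase, provided the image of the vertices has bounded
geometry or the two elements are weakly properly discontinuous; in particular so does every Cayley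
graph of every group with such an action on a proper hyperbolic space. -/
theorem result :
    (∀ (W : Type u) (X : Type v) (Γ : Type w) [PseudoMetricSpace X] [Group Γ] [MulAction Γ W]
      [MulAction Γ X] (H : SimpleGraph W),
      (∀ x, (H.neighborSet x).Finite) → H.Connected →
      (∀ (g : Γ) (x y : W), H.Adj (g • x) (g • y) ↔ H.Adj x y) →
      (∃ F : Set W, F.Finite ∧ ∀ x : W, ∃ g : Γ, g • x ∈ F) →
      (∀ (g : Γ) (a b : X), dist (g • a) (g • b) = dist a b) →
      ∀ δ : ℝ, Hyp.Hyperbolic X δ →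
      ∀ π : W → X, (∀ (g : Γ) (x : W), π (g • x) = g • π x) →
      ∀ (o : X) (g h : Γ) (C : ℝ),
      (∀ n m : ℕ, Hyp.gp o (g ^ n • o) ((g ^ m)⁻¹ • o) ≤ C) →
      (∀ n m : ℕ, Hyp.gp o (h ^ n • o) ((h ^ m)⁻¹ • o) ≤ C) →
      (∀ n m : ℤ, Hyp.gp o (g ^ n • o) (h ^ m • o) ≤ C) →
      Filter.Tendsto (fun n : ℕ => dist o (g ^ n • o)) Filter.atTop Filter.atTop →
      Filter.Tendsto (fun n : ℕ => dist o (h ^ n • o)) Filter.atTop Filter.atTop →
      ((∃ R : ℝ, ∀ r : ℝ, ∃ N : ℕ, ∀ A : Finset W,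
          (∀ x ∈ A, ∀ y ∈ A, x ≠ y → R < dist (π x) (π y)) →
          (∀ x ∈ A, dist o (π x) ≤ r) → A.card ≤ N) ∨
        ∀ k ∈ ({g, h} : Set Γ), ∀ D : ℝ, ∃ n : ℕ, 0 < n ∧
          {a : Γ | dist o (a • o) ≤ D ∧ dist (k ^ n • o) (a • k ^ n • o) ≤ D}.Finite) →
      pc H < pu H) ∧
    ∀ (G : Type u) (X : Type v) [Group G] [PseudoMetricSpace X] [ProperSpace X] [MulAction G X]
      (S : Finset G), Subgroup.closure (S : Set G) = ⊤ →
      (∀ (g : G) (a b : X), dist (g • a) (g • b) = dist a b) →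
      ∀ δ : ℝ, Hyp.Hyperbolic X δ →
      ∀ (o : X) (g h : G) (C : ℝ),
      (∀ n m : ℕ, Hyp.gp o (g ^ n • o) ((g ^ m)⁻¹ • o) ≤ C) →
      (∀ n m : ℕ, Hyp.gp o (h ^ n • o) ((h ^ m)⁻¹ • o) ≤ C) →
      (∀ n m : ℤ, Hyp.gp o (g ^ n • o) (h ^ m • o) ≤ C) →
      Filter.Tendsto (fun n : ℕ => dist o (g ^ n • o)) Filter.atTop Filter.atTop →
      Filter.Tendsto (fun n : ℕ => dist o (h ^ n • o)) Filter.atTop Filter.atTop →
      pc (SimpleGraph.mulCayley (S : Set G)) < pu (SimpleGraph.mulCayley (S : Set G)) :=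
  ⟨fun _ _ _ _ _ _ _ _ hlf hH hadj hfin hiso _ hyp π hπ o g h C hg hh hgh hgt hht hbd =>
      Hyp.pc_lt_pu_of_hyperbolic hlf hH hadj hfin hiso hyp π hπ o g h C hg hh hgh hgt hht hbd,
    fun _ _ _ _ _ _ S hS hiso _ hyp o g h C hg hh hgh hgt hht =>
      Hyp.pc_lt_pu_cayley_proper S hS hiso hyp o g h C hg hh hgh hgt hht⟩

end Vale.Agent.Results.P165.HyperbolicActions
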