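import Vale.Agent.P165.Main

open Vale.Agent.P165

namespace Vale.Agent.Results.P165.ManyFactorProducts

/-- Box products of many bounded degree quasi-transitive regular graphs, a positive proportion of
which have isoperimetric constant bounded below, have a nonuniqueness phase. -/
theorem result (D : ℕ) (h η : ℝ) (hh : 0 < h) (hη : 0 < η) :
    ∃ K : ℕ, ∀ k : ℕ, K ≤ k → ∀ (U : Fin k → Type*) (G : ∀ i, SimpleGraph (U i))
      (d : Fin k → ℕ) (T : Finset (Fin k)),
      (∀ i, (G i).Connected ∧ Regular (G i) (d i) ∧ d i ≤ D ∧ QuasiTransitive (G i)) →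
      η * k ≤ T.card → (∀ i ∈ T, IsoAtLeast (G i) h) →
      (boxProduct G).Connected ∧ Infinite (∀ i, U i) ∧ Regular (boxProduct G) (∑ i, d i) ∧
        QuasiTransitive (boxProduct G) ∧ Nonamenable (boxProduct G) ∧
        pc (boxProduct G) < pu (boxProduct G) :=
  products_pc_lt_pu D h η hh hη

end Vale.Agent.Results.P165.ManyFactorProducts
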