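import Vale.Agent.P165.HighDim.Main

open Finset
open Vale.Agent.P165

namespace Vale.Agent.Results.P165.OneNonamenableFactor

/-- A spectral gap of order one with few short walks forces a nonuniqueness phase in high degree;
in particular one nonamenable factor among many transitive factors of bounded degree does. -/
theorem result.{u, v} :
    (∀ C c : ℝ, 0 ≤ C → 0 < c → ∃ D₀ : ℕ, ∀ (W : Type u) [DecidableEq W] [Infinite W]
      (H : SimpleGraph W) [H.LocallyFinite] (D : ℕ), D₀ ≤ D → H.Connected →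
      (∀ x y : W, ∃ φ : H ≃g H, φ x = y) → (∀ x, (H.neighborFinset x).card = D) →
      (∀ (Λ : Finset W) (f : W → ℝ), (∀ x, x ∉ Λ → f x = 0) →
        |∑ x ∈ Λ, f x * ∑ y ∈ H.neighborFinset x, f y| ≤ ((D : ℝ) - c) * ∑ x ∈ Λ, f x ^ 2) →
      (∀ n x y, n ≤ 62 → ((H.finsetWalkLength n x y).card : ℝ) ≤ C * (D : ℝ) ^ (n / 2)) →
      pc H < pu H) ∧
    (∀ (Δ : ℕ) (h : ℝ), 0 < h → ∃ K : ℕ, ∀ k : ℕ, K ≤ k → ∀ (U : Fin k → Type v)
      (G : ∀ i, SimpleGraph (U i)) (d : Fin k → ℕ),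
      (∀ i, (G i).Connected ∧ Regular (G i) (d i) ∧ 1 ≤ d i ∧ d i ≤ Δ ∧
        ∀ x y : U i, ∃ φ : G i ≃g G i, φ x = y) →
      (∃ i, IsoAtLeast (G i) h) →
      (boxProduct G).Connected ∧ Infinite (∀ i, U i) ∧ Regular (boxProduct G) (∑ i, d i) ∧
        (∀ x y : ∀ i, U i, ∃ φ : boxProduct G ≃g boxProduct G, φ x = y) ∧
        Nonamenable (boxProduct G) ∧ pc (boxProduct G) < pu (boxProduct G)) :=
  ⟨fun C c hC hc => HighDim.gap_and_few_walks.{u} C c hC hc,
    fun Δ h hh => HighDim.one_factor_pc_lt_pu.{v} Δ h hh⟩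

end Vale.Agent.Results.P165.OneNonamenableFactor
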