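import Vale.Agent.P165.Tree.Main
import Vale.Agent.P165.Quot.Main

open Vale.Agent.P165

namespace Vale.Agent.Results.P165.TreeActions

universe u v w

/-- A connected locally finite graph with a free cofinite action of a group that also acts on a
tree, with a half-tree containing two disjoint translates of itself and having its complement
inside a translate, has a nonuniqueness phase; the same holds with a free quotient, and for every
Cayley graph of every group virtually mapped onto a nonabelian free group or onto an HNN extension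
with proper associated subgroups or an amalgamated product with indices at least three and two. -/
theorem result :
    (∀ (W : Type u) (V : Type v) (Γ : Type w) [Group Γ] [MulAction Γ W] [MulAction Γ V] (H : SimpleGraph W)
      (T : SimpleGraph V),
      (∀ x, (H.neighborSet x).Finite) → H.Connected →
      (∀ (g : Γ) (x y : W), H.Adj (g • x) (g • y) ↔ H.Adj x y) →
      (∀ (g : Γ) (x : W), g • x = x → g = 1) →
      (∃ F : Set W, F.Finite ∧ ∀ x : W, ∃ g : Γ, g • x ∈ F) →
      T.IsTree → (∀ (g : Γ) (u v : V), T.Adj (g • u) (g • v) ↔ T.Adj u v) →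
      ∀ (f : V × V) (a b d : Γ), T.Adj f.1 f.2 →
      Tree.cone T (a • f) ⊆ Tree.cone T f → Tree.cone T (b • f) ⊆ Tree.cone T f →
      Disjoint (Tree.cone T (a • f)) (Tree.cone T (b • f)) →
      (Tree.cone T f)ᶜ ⊆ Tree.cone T (d • f) → pc H < pu H) ∧
    (∀ (W : Type u) (Γ : Type w) [Group Γ] [MulAction Γ W] (H : SimpleGraph W),
      (∀ x, (H.neighborSet x).Finite) → H.Connected →
      (∀ (g : Γ) (x y : W), H.Adj (g • x) (g • y) ↔ H.Adj x y) →
      (∀ (g : Γ) (x : W), g • x = x → g = 1) →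
      (∃ F : Set W, F.Finite ∧ ∀ x : W, ∃ g : Γ, g • x ∈ F) →
      ∀ k : ℕ, 2 ≤ k → ∀ π : Γ →* FreeGroup (Fin k), Function.Surjective π → pc H < pu H) ∧
    (∀ (G : Type u) [Group G] (S : Finset G), Subgroup.closure (S : Set G) = ⊤ →
      ∀ Δ : Subgroup G, Δ.FiniteIndex → ∀ k : ℕ, 2 ≤ k →
      ∀ π : Δ →* FreeGroup (Fin k), Function.Surjective π →
        pc (SimpleGraph.mulCayley (S : Set G)) < pu (SimpleGraph.mulCayley (S : Set G))) ∧
    (∀ (X : Type u) [Group X] (S : Finset X), Subgroup.closure (S : Set X) = ⊤ →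
      ∀ Δ : Subgroup X, Δ.FiniteIndex → ∀ (G : Type v) [Group G] (A B : Subgroup G) (φ : A ≃* B),
      A ≠ ⊤ → B ≠ ⊤ → ∀ π : Δ →* HNNExtension G A B φ, Function.Surjective π →
        pc (SimpleGraph.mulCayley (S : Set X)) < pu (SimpleGraph.mulCayley (S : Set X))) ∧
    ∀ (X : Type u) [Group X] (S : Finset X), Subgroup.closure (S : Set X) = ⊤ →
      ∀ Δ : Subgroup X, Δ.FiniteIndex → ∀ (C : Type v) [Group C] (A : Bool → Type v)
      [∀ i, Group (A i)] (φ : ∀ i, C →* A i), (∀ i, Function.Injective (φ i)) →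
      ∀ (a₁ a₂ : A true) (b : A false), a₁ ∉ (φ true).range → a₂ ∉ (φ true).range →
      a₁⁻¹ * a₂ ∉ (φ true).range → b ∉ (φ false).range →
      ∀ π : Δ →* Monoid.PushoutI φ, Function.Surjective π →
        pc (SimpleGraph.mulCayley (S : Set X)) < pu (SimpleGraph.mulCayley (S : Set X)) :=
  ⟨fun _ _ _ _ _ _ _ _ hlf hH hadj hfree hfin hT hinv _ _ _ _ h1 h2 h3 h4 h5 =>
      Tree.pc_lt_pu_of_tree_action hlf hH hadj hfree hfin hT ⟨h1, hinv, h2, h3, h4, h5⟩,
    fun _ _ _ _ _ hlf hH hadj hfree hfin _ hk π hπ =>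
      Tree.pc_lt_pu_of_free_quotient hlf hH hadj hfree hfin hk π hπ,
    fun _ _ S hS Δ hΔ _ hk π hπ => by
      have := hΔ
      exact Quot.pc_lt_pu_cayley S hS Δ hk π hπ,
    fun _ _ S hS Δ hΔ _ _ _ _ _ hA hB π hπ => by
      have := hΔ
      exact Tree.pc_lt_pu_cayley_hnn S hS Δ hA hB π hπ,
    fun _ _ S hS Δ hΔ _ _ _ _ _ hφ _ _ _ h1 h2 h12 hb π hπ => by
      have := hΔ
      exact Tree.pc_lt_pu_cayley_amalgam S hS Δ hφ h1 h2 h12 hb π hπ⟩

end Vale.Agent.Results.P165.TreeActions
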